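import Vale.Agent.P281.H64.TK.SpecT
import Vale.Agent.P281.MF.FibreZero

/-!
# P281, project T-T (helper760): block TKOD

A compact connected manifold with `d` independent closed holomorphic 1-forms has Kodaira dimension
`≤ 0` (if it does not meet the boundary).
-/

open Set Filter
open scoped Topology ContDiff Manifold

noncomputable section

namespace Vale.Agent.P281.H760

open Vale.Agent.P281 Vale.Agent.P281.MF Vale.Agent.P272.K

theorem clm_sum {d : ℕ} (A : Cm d →L[ℂ] ℂ) (v : Cm d) : A v = ∑ b, v b * A (Pi.single b 1) := by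
  conv_lhs => rw [← Finset.univ_sum_single v]
  rw [map_sum]
  refine Finset.sum_congr rfl fun b _ => ?_
  have h : (Pi.single b (v b) : Cm d) = v b • Pi.single b 1 := by
    rw [← Pi.single_smul', smul_eq_mul, mul_one]
  rw [h, map_smul, smul_eq_mul]

section
variable {d : ℕ} {F : Type} [TopologicalSpace F] [ChartedSpace (Cm d) F]

/-- The coefficient of `η_1 ∧ ⋯ ∧ η_d` in the standard frame. -/
def wdet (η : Fin d → F → (Cm d →L[ℂ] ℂ)) (x : F) : ℂ :=
  (Matrix.of fun a b => η a x (Pi.single b 1)).det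

omit [TopologicalSpace F] [ChartedSpace (Cm d) F] in
theorem wdet_ne {η : Fin d → F → (Cm d →L[ℂ] ℂ)} {x : F}
    (h : ∀ v, (∀ a, η a x v = 0) → v = 0) : wdet η x ≠ 0 := by
  intro h0
  obtain ⟨v, hv, hv0⟩ := Matrix.exists_mulVec_eq_zero_iff.2 h0
  refine hv (h v fun a => ?_)
  have h1 := congrFun hv0 a
  rw [Pi.zero_apply] at h1
  rw [← h1, clm_sum, Matrix.mulVec, dotProduct]
  refine Finset.sum_congr rfl fun b _ => ?_
  rw [Matrix.of_apply, mul_comm]

theorem wdet_local [IsManifold 𝓘(ℂ, Cm d) ω F] {η : Fin d → F → (Cm d →L[ℂ] ℂ)} {x₀ : F}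
    (h : ∀ a, ∃ ψ : F → ℂ, J.HolAt (Cm d) ψ x₀ ∧ ∀ᶠ z in 𝓝 x₀, η a z = J.dif (Cm d) ψ z) :
    ∃ c : F → ℂ, HolV (Cm d) c x₀ ∧
      ∀ᶠ z in 𝓝 x₀, wdet η z = c z * jac (Cm d) (chartAt (Cm d) x₀) z := by
  choose ψ hψ hψe using h
  set φ := chartAt (Cm d) x₀ with hφ
  have hx₀ : x₀ ∈ φ.source := mem_chart_source _ _
  have hψ' : ∀ a, HolV (Cm d) (ψ a) x₀ := hψ
  let A : Fin d → F → (Cm d →L[ℂ] ℂ) := fun a z => fderiv ℂ (ψ a ∘ φ.symm) (φ z)
  have hA : ∀ a, HolV (Cm d) (A a) x₀ := by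
    intro a
    refine HolV.comp_contDiff (G := fderiv ℂ (ψ a ∘ φ.symm)) ?_ (HolV.chart hx₀)
    exact ((hψ' a).rep hx₀).fderiv_right (by simp)
  have hAe : ∀ a b, HolV (Cm d) (fun z => A a z (Pi.single b 1)) x₀ := by
    intro a b
    refine HolV.comp_contDiff (G := fun L : Cm d →L[ℂ] ℂ => L (Pi.single b 1)) ?_ (hA a)
    exact (ContinuousLinearMap.apply ℂ ℂ (Pi.single b 1 : Cm d)).contDiff.contDiffAt
  refine ⟨fun z => (Matrix.of fun a b => A a z (Pi.single b 1)).det, ?_, ?_⟩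
  · have h1 : (fun z => (Matrix.of fun a b => A a z (Pi.single b 1)).det) = fun z =>
        ∑ σ : Equiv.Perm (Fin d), ((Equiv.Perm.sign σ : ℤ) : ℂ) *
          ∏ c, A (σ c) z (Pi.single c 1) := by
      funext z
      rw [Matrix.det_apply']
      rfl
    rw [h1]
    exact HolV.sum fun σ _ => (HolV.const _ _).mul (HolV.prod fun c _ => hAe _ _)
  · have h2 : ∀ᶠ z in 𝓝 x₀, ∀ a, η a z = J.dif (Cm d) (ψ a) z := eventually_all.2 hψe
    have h3 : ∀ᶠ z in 𝓝 x₀, ∀ a, HolV (Cm d) (ψ a) z :=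
      eventually_all.2 fun a => (hψ' a).eventually
    filter_upwards [h2, h3, φ.open_source.mem_nhds hx₀] with z h4 h5 h6
    have h7 : (Matrix.of fun a b => η a z (Pi.single b 1)) =
        (Matrix.of fun a b => A a z (Pi.single b 1)) * LinearMap.toMatrix'
          ((dV (Cm d) (φ : F → Cm d) z : Cm d →L[ℂ] Cm d) : Cm d →ₗ[ℂ] Cm d) := by
      ext a b
      have h8 : dV (Cm d) (ψ a) z = (A a z).comp (dV (Cm d) (φ : F → Cm d) z) :=
        dV_eq_chart h6 (h5 a)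
      have h9 : η a z = (A a z).comp (dV (Cm d) (φ : F → Cm d) z) := (h4 a).trans h8
      rw [Matrix.of_apply, h9, Matrix.mul_apply, ContinuousLinearMap.comp_apply, clm_sum]
      refine Finset.sum_congr rfl fun c _ => ?_
      rw [Matrix.of_apply, LinearMap.toMatrix'_apply, mul_comm]
      rfl
    rw [wdet, h7, Matrix.det_mul, LinearMap.det_toMatrix']
    rfl

end

/-- **TKOD** -/
theorem tkod : H64.TK.TKodStmt := by
  intro n d X F _ _ _ _ _ _ _ _ i Δ hd hi hpar hΔ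
  obtain ⟨η, hη, hinj⟩ := hpar
  have hi' : ∀ p, HolM (Cm d) (Cm n) i p := fun p => hi.contMDiffAt
  have hD0 : ∀ x, wdet η x ≠ 0 := fun x => wdet_ne (hinj x)
  unfold H713.TZ.S.kodR J.kod
  refine iSup₂_le ?_
  rintro j ⟨m, k, s, z, hm, hk, hs, -, hs0, hsurj⟩
  have hΔk : ∀ D, k D ≠ 0 → Δ D ≠ 0 := by
    intro D hD h0
    have := hk D
    rw [h0, mul_zero] at this
    exact hD (by exact_mod_cast this)
  have hne : ∀ D, k D ≠ 0 → ∀ p (g : F → ℂ), (∃ e, J.IsLocalEq (Cm n) D e (i p) ∧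
      ∀ᶠ q in 𝓝 p, g q = e (i q)) → HolV (Cm d) g p ∧ g p ≠ 0 := by
    rintro D hD p g ⟨e, he, hge⟩
    have heh : HolV (Cm n) e (i p) := IsLocalEq.holAt he
    refine ⟨(HolV.comp heh (hi' p)).congr hge, ?_⟩
    rw [hge.self_of_nhds]
    obtain ⟨W, hW, hzW, -, hWD, -⟩ := he
    intro h0
    exact hΔ D (hΔk D hD) p ((hWD _ hzW).2 h0)
  have hloc : ∀ b p, ∃ a : F → ℂ, HolV (Cm d) a p ∧
      ∀ᶠ w in 𝓝 p, s b w = a w * jac (Cm d) (chartAt (Cm d) p) w ^ m :=
    fun b p => MF.section_local (E₀ := Cm d) (eqn := fun (D : Set X) p g =>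
      ∃ e, J.IsLocalEq (Cm n) D e (i p) ∧ ∀ᶠ q in 𝓝 p, g q = e (i q)) (hs b) hne p
  let H : ℕ → F → ℂ := fun b p => s b p / wdet η p ^ m
  have hHhol : ∀ b p, HolV (Cm d) (H b) p := by
    intro b p
    obtain ⟨a, ha, hae⟩ := hloc b p
    obtain ⟨c, hc, hce⟩ := wdet_local (x₀ := p) (fun a => hη a p)
    have hc0 : c p ≠ 0 := by
      intro h0
      apply hD0 p
      rw [hce.self_of_nhds, h0, zero_mul]
    refine (ha.div (hc.pow m) (pow_ne_zero _ hc0)).congr ?_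
    filter_upwards [hae, hce] with q h1 h2
    have h3 : jac (Cm d) (chartAt (Cm d) p) q ≠ 0 := by
      intro h0
      apply hD0 q
      rw [h2, h0, mul_zero]
    change s b q / wdet η q ^ m = a q / c q ^ m
    rw [h1, h2, mul_pow, mul_div_mul_right _ _ (pow_ne_zero _ h3)]
  have hHconst : ∀ b p q, H b p = H b q := by
    intro b p q
    have h1 : MDifferentiable 𝓘(ℂ, Cm d) 𝓘(ℂ, ℂ) (H b) := fun x => (hHhol b x).mdiff
    exact h1.apply_eq_of_compactSpace p q
  have hratio : ∀ b, (fun w => s b w / s 0 w) = fun _ => H b z / H 0 z := by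
    intro b
    funext w
    rw [hHconst b z w, hHconst 0 z w]
    change _ = (s b w / wdet η w ^ m) / (s 0 w / wdet η w ^ m)
    rw [div_div_div_cancel_right₀ (pow_ne_zero _ (hD0 w))]
  have hdif : ∀ b, J.dif (Cm d) (fun w => s b w / s 0 w) z = 0 := by
    intro b
    rw [hratio b]
    exact mfderiv_const
  have hj : j = 0 := by
    by_contra hj
    obtain ⟨ξ, hξ⟩ := hsurj fun _ => 1
    have h1 := congrFun hξ ⟨0, Nat.pos_of_ne_zero hj⟩
    simp only at h1
    rw [hdif] at h1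
    exact zero_ne_one h1
  rw [hj]
  simp

end Vale.Agent.P281.H760
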